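import Mathlib

/-!
P226, pool job GEN-L1 (helper38, third parallel copy): a rotation-invariant finite measure
integrates positively 1-homogeneous functions like the standard Gaussian.

Route (shorter than the one in the job text): under the product of the measure and the Gaussian,
the vectors `|g| w` and `|w| g` have the same law, because the two laws have the same
characteristic function (the characteristic function of a rotation-invariant measure depends only
on the norm, and one exchange of the order of integration). Integrating `h` against both laws and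
using the homogeneity gives the statement. The hypotheses `hint` and `hC` are not needed on this
route; they are kept because the job fixes the statement.
-/

namespace Vale.Agent.Lib.P226.H38

open MeasureTheory ProbabilityTheory

section

variable {E : Type*} [NormedAddCommGroup E] [InnerProductSpace ℝ E]
    [FiniteDimensional ℝ E] [MeasurableSpace E] [BorelSpace E]

/-- The characteristic function of a rotation-invariant measure depends only on the norm. -/
theorem charFun_eq_of_norm_eq (μ : Measure E)
    (hμ : ∀ U : E ≃ₗᵢ[ℝ] E, μ.map U = μ) {t t' : E} (ht : ‖t‖ = ‖t'‖) :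
    charFun μ t = charFun μ t' := by
  obtain ⟨U, hUt⟩ : ∃ U : E ≃ₗᵢ[ℝ] E, U t = t' := ⟨_, Submodule.reflection_sub ht⟩
  have h1 : charFun μ t' = charFun (μ.map U) t' := by rw [hμ U]
  rw [h1, charFun_apply, charFun_apply,
    integral_map (Measurable.aemeasurable (by fun_prop))
      (Measurable.aestronglyMeasurable (by fun_prop))]
  refine integral_congr_ae (Filter.Eventually.of_forall fun x => ?_)
  simp only
  rw [← hUt, LinearIsometryEquiv.inner_map_map]

/-- A unimodular exponential of a measurable real function is integrable for a finite measure. -/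
theorem integrable_cexp {X : Type*} [MeasurableSpace X] (ρ : Measure X) [IsFiniteMeasure ρ]
    (F : X → ℝ) (hF : Measurable F) :
    Integrable (fun p : X => Complex.exp ((F p : ℂ) * Complex.I)) ρ := by
  refine Integrable.of_bound (Measurable.aestronglyMeasurable (by fun_prop)) 1
    (Filter.Eventually.of_forall fun p => ?_)
  rw [Complex.norm_exp_ofReal_mul_I]

/-- Under the product of a rotation-invariant finite measure and the standard Gaussian, the
vectors `|g| w` and `|w| g` have the same law. -/
theorem map_norm_smul_eq (μ : Measure E) [IsFiniteMeasure μ]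
    (hμ : ∀ U : E ≃ₗᵢ[ℝ] E, μ.map U = μ) :
    (μ.prod (stdGaussian E)).map (fun p : E × E => ‖p.2‖ • p.1)
      = (μ.prod (stdGaussian E)).map (fun p : E × E => ‖p.1‖ • p.2) := by
  have : CompleteSpace E := FiniteDimensional.complete ℝ E
  have hm1 : Measurable (fun p : E × E => ‖p.2‖ • p.1) := by fun_prop
  have hm2 : Measurable (fun p : E × E => ‖p.1‖ • p.2) := by fun_prop
  refine Measure.ext_of_charFun (funext fun t => ?_)
  have hL : charFun ((μ.prod (stdGaussian E)).map (fun p : E × E => ‖p.2‖ • p.1)) t
      = ∫ g, charFun μ (‖t‖ • g) ∂(stdGaussian E) := by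
    rw [charFun_apply, integral_map hm1.aemeasurable
      (Measurable.aestronglyMeasurable (by fun_prop)),
      integral_prod_symm _ (integrable_cexp _ (fun p : E × E => inner ℝ (‖p.2‖ • p.1) t)
        (by fun_prop))]
    refine integral_congr_ae (Filter.Eventually.of_forall fun g => ?_)
    simp only
    rw [charFun_eq_of_norm_eq μ hμ (t := ‖t‖ • g) (t' := ‖g‖ • t)
      (by rw [norm_smul, norm_smul, norm_norm, norm_norm, mul_comm]), charFun_apply]
    refine integral_congr_ae (Filter.Eventually.of_forall fun w => ?_)
    simp only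
    rw [real_inner_smul_left, real_inner_smul_right]
  have hR : charFun ((μ.prod (stdGaussian E)).map (fun p : E × E => ‖p.1‖ • p.2)) t
      = ∫ w, charFun (stdGaussian E) (‖t‖ • w) ∂μ := by
    rw [charFun_apply, integral_map hm2.aemeasurable
      (Measurable.aestronglyMeasurable (by fun_prop)),
      integral_prod _ (integrable_cexp _ (fun p : E × E => inner ℝ (‖p.1‖ • p.2) t)
        (by fun_prop))]
    refine integral_congr_ae (Filter.Eventually.of_forall fun w => ?_)
    simp only
    have e1 : charFun (stdGaussian E) (‖t‖ • w) = charFun (stdGaussian E) (‖w‖ • t) := by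
      rw [charFun_stdGaussian, charFun_stdGaussian, norm_smul, norm_smul, norm_norm, norm_norm,
        mul_comm]
    rw [e1, charFun_apply]
    refine integral_congr_ae (Filter.Eventually.of_forall fun g => ?_)
    simp only
    rw [real_inner_smul_left, real_inner_smul_right]
  have hM : ∫ g, charFun μ (‖t‖ • g) ∂(stdGaussian E)
      = ∫ w, charFun (stdGaussian E) (‖t‖ • w) ∂μ := by
    have hi : Integrable (fun p : E × E => Complex.exp ((inner ℝ p.1 (‖t‖ • p.2) : ℝ) * Complex.I))
        (μ.prod (stdGaussian E)) :=
      integrable_cexp _ (fun p : E × E => inner ℝ p.1 (‖t‖ • p.2)) (by fun_prop)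
    have a1 := integral_prod_symm _ hi
    have a2 := integral_prod _ hi
    rw [a1] at a2
    calc ∫ g, charFun μ (‖t‖ • g) ∂(stdGaussian E)
        = ∫ g, ∫ w, Complex.exp ((inner ℝ w (‖t‖ • g) : ℝ) * Complex.I) ∂μ
            ∂(stdGaussian E) := rfl
      _ = ∫ w, ∫ g, Complex.exp ((inner ℝ w (‖t‖ • g) : ℝ) * Complex.I) ∂(stdGaussian E)
            ∂μ := a2
      _ = ∫ w, charFun (stdGaussian E) (‖t‖ • w) ∂μ := by
        refine integral_congr_ae (Filter.Eventually.of_forall fun w => ?_)
        simp only
        rw [charFun_apply]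
        refine integral_congr_ae (Filter.Eventually.of_forall fun g => ?_)
        simp only
        rw [real_inner_smul_right, real_inner_smul_right, real_inner_comm]
  rw [hL, hM, hR]

theorem invariant_integral_hom
    (μ : Measure E) [IsFiniteMeasure μ]
    (hμ : ∀ U : E ≃ₗᵢ[ℝ] E, μ.map U = μ)
    (hint : Integrable (fun w : E => ‖w‖) μ)
    (h : E → ℝ) (hmeas : Measurable h)
    (hhom : ∀ (t : ℝ), 0 ≤ t → ∀ x, h (t • x) = t * h x)
    (C : ℝ) (hC : ∀ x, |h x| ≤ C * ‖x‖) :
    (∫ g, ‖g‖ ∂(stdGaussian E)) * ∫ w, h w ∂μ
      = (∫ w, ‖w‖ ∂μ) * ∫ g, h g ∂(stdGaussian E) := by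
  have _h1 := hint
  have _h2 := hC
  have hm1 : Measurable (fun p : E × E => ‖p.2‖ • p.1) := by fun_prop
  have hm2 : Measurable (fun p : E × E => ‖p.1‖ • p.2) := by fun_prop
  have e1 : ∫ x, h x ∂((μ.prod (stdGaussian E)).map (fun p : E × E => ‖p.2‖ • p.1))
      = (∫ g, ‖g‖ ∂(stdGaussian E)) * ∫ w, h w ∂μ := by
    rw [integral_map hm1.aemeasurable hmeas.aestronglyMeasurable]
    have e : ∀ p : E × E, h (‖p.2‖ • p.1) = h p.1 * ‖p.2‖ := fun p => by
      rw [hhom _ (norm_nonneg _), mul_comm]
    simp_rw [e]
    rw [integral_prod_mul, mul_comm]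
  have e2 : ∫ x, h x ∂((μ.prod (stdGaussian E)).map (fun p : E × E => ‖p.1‖ • p.2))
      = (∫ w, ‖w‖ ∂μ) * ∫ g, h g ∂(stdGaussian E) := by
    rw [integral_map hm2.aemeasurable hmeas.aestronglyMeasurable]
    have e : ∀ p : E × E, h (‖p.1‖ • p.2) = ‖p.1‖ * h p.2 := fun p => by
      rw [hhom _ (norm_nonneg _)]
    simp_rw [e]
    rw [integral_prod_mul]
  rw [← e1, ← e2, map_norm_smul_eq μ hμ]

end

end Vale.Agent.Lib.P226.H38
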